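import Vale.Agent.P352Z.R.CONM.D

/-!
# P352Z, row CONM, part E: the contact terms
-/

set_option linter.all false

open MeasureTheory Filter Topology Set
open scoped SchwartzMap ComplexConjugate ContDiff

namespace Vale.Agent.P352X.ZZ.Conm

export Vale.Agent.P352X.Conm (dg_ap sim_bas bas_dec p1 p2 sm_p1 sm_p2 Gc Gc_ap Gc_cs dg_Gc
  dg_zero dg_one ct)

open Vale.Agent.P352 Vale.Agent.P352.GF Vale.Agent.P352.BW Vale.Agent.P352.H246
open Vale.Agent.P352.H496 Vale.Agent.P352.H755 Vale.Agent.P352.H15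
open UniformSpace (Completion)
open Complex (I)

noncomputable section

open Ev

variable {D : Type*} [NormedAddCommGroup D] [InnerProductSpace ℂ D] {c : Ctx D}

lemma eig (hg : GRP c) {L : ℝ} (hL : 0 < L) {ψ : V → ℂ} (hψ : ContDiff ℝ ∞ ψ) {a : ℂ}
    (h : ∀ v, ψ (scp L 1 v) = a * ψ v) {k : ℕ} (γ' : Fin k → Ix) :
    ∑ γ : Fin k → Ix, ((∏ i, Bs L (γ' i) (γ i) : ℝ) : ℂ) *
      iteratedFDeriv ℝ k ψ 0 (fun i => bas (γ i) 1) =
      (((Real.sqrt L)⁻¹ : ℝ) : ℂ) ^ k * (a * iteratedFDeriv ℝ k ψ 0 fun i => bas (γ' i) 1) := by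
  have e1 : iteratedFDeriv ℝ k ψ 0 (fun i => Bs L (γ' i)) = ∑ γ : Fin k → Ix,
      ((∏ i, Bs L (γ' i) (γ i) : ℝ) : ℂ) * iteratedFDeriv ℝ k ψ 0 (fun i => bas (γ i) 1) := by
    conv_lhs => rw [funext fun i => bas_dec (Bs L (γ' i))]
    rw [ContinuousMultilinearMap.map_sum]
    refine Finset.sum_congr rfl fun γ _ => ?_
    rw [ContinuousMultilinearMap.map_smul_univ, Complex.real_smul]
  have e2 : ψ ∘ scpL L 1 = a • ψ := funext fun v => h v
  have e3 := ContinuousLinearMap.iteratedFDeriv_comp_right (scpL L 1) hψ 0 (i := k)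
    (by exact_mod_cast le_top)
  rw [e2, iteratedFDeriv_const_smul_apply (hψ.of_le (by exact_mod_cast le_top)).contDiffAt,
    map_zero] at e3
  have e4 := congrArg (fun M => M fun i => bas (γ' i) 1) e3
  simp only [ContinuousMultilinearMap.smul_apply,
    ContinuousMultilinearMap.compContinuousLinearMap_apply, scpL_apply, smul_eq_mul] at e4
  rw [← e1, e4]
  simp only [Bs_row hg hL]
  rw [ContinuousMultilinearMap.map_smul_univ, Complex.real_smul]
  simp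

/-- restriction to the diagonal -/
def dR : S2 →L[ℂ] Sch := SchwartzMap.compCLMOfAntilipschitz ℂ
  ((ContinuousLinearMap.id ℝ V).prod (ContinuousLinearMap.id ℝ V)).hasTemperateGrowth
  (K := 1) (AntilipschitzWith.of_le_mul_dist fun x y => by simp [Prod.dist_eq])

lemma dg_eq {k : ℕ} (γ : Fin k → Ix) (G : S2) : dg γ G =
    dR (LineDeriv.iteratedLineDerivOp (fun i => ((bas (γ i) 1, 0) : V × V)) G) := by
  ext x
  have e : (fun u : V => G (x + u, x)) =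
      (fun y => G ((x, x) + y)) ∘ ContinuousLinearMap.inl ℝ V V := by
    funext u
    simp
  have s : ContDiff ℝ ∞ fun y => G ((x, x) + y) :=
    (G.smooth ⊤).comp (contDiff_const.add contDiff_id)
  rw [dg_ap, e, ContinuousLinearMap.iteratedFDeriv_comp_right _ s _ (by exact_mod_cast le_top),
    iteratedFDeriv_comp_add_left, dR, SchwartzMap.compCLMOfAntilipschitz_apply, Function.comp_apply,
    SchwartzMap.iteratedLineDerivOp_eq_iteratedFDeriv]
  simp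

lemma it_ld {k : ℕ} (m : Fin k → V × V) (v : V × V) (G : S2) :
    LineDeriv.iteratedLineDerivOp m (ld v G) = ld v (LineDeriv.iteratedLineDerivOp m G) := by
  induction k with
  | zero => rfl
  | succ k ih =>
    rw [LineDeriv.iteratedLineDerivOp_succ_left, LineDeriv.iteratedLineDerivOp_succ_left, ih]
    exact ld_comm _ _ _

lemma dg_p22 {k : ℕ} (γ : Fin k → Ix) (b : Ix) (G : S2) :
    dg γ (p22 b G) = ld (bas b 1) (dg γ G) - dg (Matrix.vecCons b γ) G := by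
  have e : ∀ H : S2, ld (bas b 1) (dR H) = dR (p21 b H + p22 b H) := fun H => by
    ext x
    rw [p21_eq, p22_eq, ← ld_add]
    exact ld_comp (A := fun x : V => (x, x)) (fun _ => rfl) (fun x t => by simp) x
  rw [dg_eq, dg_eq, dg_eq, e, p22_eq, it_ld, LineDeriv.iteratedLineDerivOp_succ_left, map_add]
  exact (add_sub_cancel_left _ _).symm

lemma dg_smul {k : ℕ} (γ : Fin k → Ix) (a : ℂ) (G : S2) : dg γ (a • G) = a • dg γ G := by
  rw [dg_eq, dg_eq, LineDeriv.iteratedLineDerivOp_smul, map_smul]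

variable {ι : Type} [Fintype ι]

/-- the local form of a family of test functions near the diagonal -/
def Loc (i : Fin 2) (c1 c2 : ι → ℝ) (A B : ℝ → ℝ) (u : V → ℝ) (G : ι → S2) : Prop :=
  ∀ k (γ : Fin k → Ix) x z, dg γ (G x) z = u z *
    (c1 x * iteratedFDeriv ℝ k (p1 i A z) 0 (fun j => bas (γ j) 1) +
      c2 x * iteratedFDeriv ℝ k (p2 B z) 0 fun j => bas (γ j) 1)

/-- index sets of the contact multiplets -/
structure Emb (m : ℝ → ι → ι → ℝ) (c1 c2 : ι → ℝ) (N : ℕ)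
    (ix : (k : ℕ) → ι → I2 → (Fin k → Ix) → Fin (k + N) → Ix) : Prop where
  odd : Odd N
  e1 : ∀ L, 0 < L → ∀ x', ∑ x, m L x' x * c1 x = (Real.sqrt L)⁻¹ * c1 x'
  e2 : ∀ L, 0 < L → ∀ x', ∑ x, m L x' x * c2 x = c2 x'
  sum : ∀ k (F : (Fin (k + N) → Ix) → ℂ), ∑ ν, F ν =
    ∑ x : Ix × Ix × ι × (Fin k → Ix), F (ix k x.2.2.1 (x.1, x.2.1) x.2.2.2)
  prod : ∀ k L x x' a a' b b' γ γ', ∏ i, Bs L (ix k x' (a', b') γ' i) (ix k x (a, b) γ i) =
    Bs L a' a * Bs L b' b * (m L x' x * ∏ i, Bs L (γ' i) (γ i))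

variable {i : Fin 2} {c1 c2 : ι → ℝ} {A B : ℝ → ℝ} {u : V → ℝ} {G : ι → S2} {m : ℝ → ι → ι → ℝ}
  {N : ℕ} {ix : (k : ℕ) → ι → I2 → (Fin k → Ix) → Fin (k + N) → Ix}

lemma Loc.eig (h : Loc i c1 c2 A B u G) (hg : GRP c) (E : Emb m c1 c2 N ix) (hA : Tst A)
    (hB : Tst B) {k : ℕ} {L : ℝ} (hL : 0 < L) (x' : ι) (γ' : Fin k → Ix) (z : V) :
    ∑ x, ∑ γ : Fin k → Ix, ((m L x' x * ∏ j, Bs L (γ' j) (γ j) : ℝ) : ℂ) * dg γ (G x) z =
      (((Real.sqrt L)⁻¹ : ℝ) : ℂ) ^ k * dg γ' (G x') z := by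
  have hq : 0 < Real.sqrt L := Real.sqrt_pos.2 hL
  have a1 := Conm.eig hg hL (sm_p1 i hA z) (a := Real.sqrt L) (fun v => by simp [p1, mul_assoc]) γ'
  have a2 := Conm.eig hg hL (sm_p2 hB z) (a := 1) (fun v => by simp [p2]) γ'
  have hq' : (Real.sqrt L : ℂ) ≠ 0 := Complex.ofReal_ne_zero.2 hq.ne'
  simp only [h k]
  calc _ = u z * ((∑ n, ((m L x' n * c1 n : ℝ) : ℂ)) * ∑ γ : Fin k → Ix,
        ((∏ j, Bs L (γ' j) (γ j) : ℝ) : ℂ) *
          iteratedFDeriv ℝ k (p1 i A z) 0 (fun j => bas (γ j) 1) +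
        (∑ n, ((m L x' n * c2 n : ℝ) : ℂ)) * ∑ γ : Fin k → Ix,
        ((∏ j, Bs L (γ' j) (γ j) : ℝ) : ℂ) *
          iteratedFDeriv ℝ k (p2 B z) 0 (fun j => bas (γ j) 1)) := by
        rw [Finset.sum_mul_sum, Finset.sum_mul_sum, ← Finset.sum_add_distrib, Finset.mul_sum]
        refine Finset.sum_congr rfl fun n _ => ?_
        rw [← Finset.sum_add_distrib, Finset.mul_sum]
        refine Finset.sum_congr rfl fun γ _ => ?_
        push_cast
        ring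
    _ = _ := by
        rw [a1, a2, ← Complex.ofReal_sum, ← Complex.ofReal_sum, E.e1 L hL, E.e2 L hL]
        push_cast
        field_simp

lemma Loc.zero (h : Loc i c1 c2 A B u G) (γ : Fin 0 → Ix) (x : ι) (z : V) :
    dg γ (G x) z = ((c2 x * (B (be z) * u z) : ℝ) : ℂ) := by
  simp [h 0, p1, p2]
  ring

lemma Loc.one (h : Loc i c1 c2 A B u G) (hA : Tst A) (hB : Tst B)
    (h2 : ∀ z, deriv B (be z) * u z = A (be z) * u z) (γ : Fin 1 → Ix) (x : ι) (z : V) :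
    dg γ (G x) z = (((c1 x * tx (bas (γ 0) 1) i + c2 x * be (bas (γ 0) 1)) *
      (A (be z) * u z) : ℝ) : ℂ) := by
  have d0 : HasFDerivAt (fun v : V => be z + be v) beL 0 := beL.hasFDerivAt.const_add _
  have d1 : HasFDerivAt (fun v : V => tx v i)
      ((ContinuousLinearMap.proj (R := ℝ) (φ := fun _ : Fin 2 => ℝ) i).comp txL) 0 :=
    ((ContinuousLinearMap.proj (R := ℝ) (φ := fun _ : Fin 2 => ℝ) i).comp txL).hasFDerivAt
  have d2 := (tst_diff hA (be z + be 0)).hasFDerivAt.comp (0 : V) d0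
  have d3 := (tst_diff hB (be z + be 0)).hasFDerivAt.comp (0 : V) d0
  have d4 := Complex.ofRealCLM.hasFDerivAt.comp (0 : V) (d1.mul d2)
  have d5 := Complex.ofRealCLM.hasFDerivAt.comp (0 : V) d3
  have e1 : ∀ v, fderiv ℝ (p1 i A z) 0 v = ((tx v i * A (be z) : ℝ) : ℂ) := fun v => by
    erw [d4.fderiv]
    simp [mul_comm]
  have e2 : ∀ v, fderiv ℝ (p2 B z) 0 v = ((be v * deriv B (be z) : ℝ) : ℂ) := fun v => by
    erw [d5.fderiv]
    simp [fderiv_eq_smul_deriv]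
  have e3 := congrArg (fun t : ℝ => (t : ℂ)) (h2 z)
  rw [h 1, iteratedFDeriv_one_apply, iteratedFDeriv_one_apply, e1, e2]
  push_cast at e3 ⊢
  linear_combination (c2 x * be (bas (γ 0) 1) : ℂ) * e3

/-- **General contact terms.** -/
theorem gen_bd (hg : GRP c) (hp : POLY c) (E : Emb m c1 c2 N ix) (i : Fin 2)
    {Λ : ι → I2 → S2 → Completion D} {k0 : ℕ}
    {O : (k : ℕ) → (Fin (k + N) → Ix) → Sch →L[ℂ] Completion D}
    (h1 : ∀ k, CovM c.Q (k + N) (5 - k) (O k))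
    (h3 : ∀ x J (G : S2), HasCompactSupport G → Λ x J G = ∑ k ∈ Finset.range (k0 + 1),
      ∑ γ : Fin k → Ix, ((k.factorial : ℂ)⁻¹) • O k (ix k x J γ) (dg γ G)) (f : Sch) :
    ∃ C : ℝ, 0 ≤ C ∧ ∀ (A B : ℝ → ℝ) (u : V → ℝ) (G : ι → S2), Tst A → Tst B →
      (∀ x, HasCompactSupport (G x)) → Loc i c1 c2 A B u G →
      (∀ z, deriv B (be z) * u z = A (be z) * u z) →
      ‖inner ℂ (c.Th (ev f)) (∑ x, ∑ a, ∑ b, ((eta a * va a : ℝ) : ℂ) •
        Λ x (a, b) (p22 b (G x)))‖ ≤ C * ((∫ z, |A (be z) * u z|) + ∫ z, |B (be z) * u z|) := by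
  have hq : ∀ k : ℕ, ∃ q, Ov c (((5 : ℤ) - k).toNat + 1) (fun L (ν μ : Ix × ι × (Fin k → Ix)) =>
      Bs L ν.1 μ.1 * ((Real.sqrt L)⁻¹ ^ 2 * (m L ν.2.1 μ.2.1 * ∏ j, Bs L (ν.2.2 j) (μ.2.2 j))))
      (fun μ => ∑ a, ((eta a * va a : ℝ) : ℂ) • O k (ix k μ.2.1 (a, μ.1) μ.2.2)) q := fun k => by
    obtain ⟨r, hr⟩ := E.odd
    obtain ⟨q, hq⟩ := ex_ov hg hp (d := 5 - k) (by simpa using h1 k)
      ⟨2 - k - r, by rw [hr]; push_cast; ring⟩
    have h2 := (hq.re _ (E.sum k) (M' := fun L ν μ => Bs L ν.1 μ.1 * (Bs L ν.2.1 μ.2.1 *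
      ((Real.sqrt L)⁻¹ * (m L ν.2.2.1 μ.2.2.1 * ∏ j, Bs L (ν.2.2.2 j) (μ.2.2.2 j)))))
      fun L x y => by rw [E.prod]; ring).ca hg (ι := Ix × ι × (Fin k → Ix))
      (M := fun L ν μ => Bs L ν.1 μ.1 *
        ((Real.sqrt L)⁻¹ * (m L ν.2.1 μ.2.1 * ∏ j, Bs L (ν.2.2 j) (μ.2.2 j))))
    exact ⟨_, h2.re (fun x => x) (fun _ => rfl) fun L x y => by ring⟩
  choose q hq using hq
  have hd := fun k => (hq k).cd hg (ι := ι × (Fin k → Ix)) (M := fun L ν μ =>
    (Real.sqrt L)⁻¹ ^ 2 * (m L ν.1 μ.1 * ∏ j, Bs L (ν.2 j) (μ.2 j)))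
  obtain ⟨C0, b0, hC0⟩ := (hd 0).bd f fun x => c2 x.1
  obtain ⟨C1, b1, hC1⟩ := (hd 1).bd f fun x =>
    c1 x.1 * tx (bas (x.2 0) 1) i + c2 x.1 * be (bas (x.2 0) 1)
  obtain ⟨C2, b2, hC2⟩ := (hq 0).bd f fun x => c1 x.2.1 * tx (bas x.1 1) i + c2 x.2.1 * be (bas x.1 1)
  refine ⟨C0 + C1 + C2, by positivity, fun A B u G hA hB hG hl e2 => ?_⟩
  set a : ℕ → ℂ := fun k => inner ℂ (c.Th (ev f)) (∑ x : ι × (Fin k → Ix), (∑ b,
    (∑ a, ((eta a * va a : ℝ) : ℂ) • O k (ix k x.1 (a, b) x.2)) ∘L ld (bas b 1)) (dg x.2 (G x.1)))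
    with ha
  set a' : ℕ → ℂ := fun k => inner ℂ (c.Th (ev f)) (∑ x : Ix × ι × (Fin k → Ix),
    (∑ a, ((eta a * va a : ℝ) : ℂ) • O k (ix k x.2.1 (a, x.1) x.2.2))
      (dg (Matrix.vecCons x.1 x.2.2) (G x.2.1))) with ha'
  have e : inner ℂ (c.Th (ev f)) (∑ x, ∑ a, ∑ b, ((eta a * va a : ℝ) : ℂ) •
      Λ x (a, b) (p22 b (G x))) = ∑ k ∈ Finset.range (k0 + 1), (k.factorial : ℂ)⁻¹ * (a k - a' k) := by
    simp only [ha, ha', ← inner_sub_right, ← inner_smul_right, ← inner_sum]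
    congr 1
    simp only [fun x J b => h3 x J (p22 b (G x)) (cs_ld _ (hG x)), dg_p22, Fintype.sum_prod_type,
      ContinuousLinearMap.sum_apply, ContinuousLinearMap.smul_apply,
      ContinuousLinearMap.comp_apply]
    simp only [Finset.sum_comm (s := (Finset.univ : Finset Ix)) (t := (Finset.univ : Finset ι)),
      map_sub, smul_sub, Finset.sum_sub_distrib, Finset.smul_sum]
    simp only [Finset.sum_comm (t := Finset.range (k0 + 1)) (s := (Finset.univ : Finset Ix)),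
      Finset.sum_comm (t := Finset.range (k0 + 1)) (s := (Finset.univ : Finset ι))]
    refine congrArg₂ _ (Finset.sum_congr rfl fun k _ => Finset.sum_congr rfl fun x _ => ?_)
      (Finset.sum_congr rfl fun k _ => Finset.sum_congr rfl fun x _ => ?_)
    · rw [Finset.sum_comm]
      symm
      rw [Finset.sum_comm]
      refine Finset.sum_congr rfl fun b _ => ?_
      rw [Finset.sum_comm]
      exact Finset.sum_congr rfl fun _ _ => Finset.sum_congr rfl fun _ _ => smul_comm _ _ _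
    · rw [Finset.sum_comm]
      refine Finset.sum_congr rfl fun b _ => ?_
      rw [Finset.sum_comm]
      exact Finset.sum_congr rfl fun _ _ => Finset.sum_congr rfl fun _ _ => smul_comm _ _ _
  have z1 : ∀ k, a (k + 1 + 1) = 0 := fun k =>
    (hd _).zero hg (w := k + 1 + 1 + 2) (by omega) f _ fun L hL x' z => by
      rw [pow_add _ (k + 1 + 1) 2, mul_comm _ (_ ^ 2), mul_assoc, ← hl.eig hg E hA hB hL x'.1 x'.2 z,
        Fintype.sum_prod_type]
      simp only [Finset.mul_sum]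
      exact Finset.sum_congr rfl fun _ _ => Finset.sum_congr rfl fun _ _ => by push_cast; ring
  have z2 : ∀ k, a' (k + 1) = 0 := fun k =>
    (hq _).zero hg (w := k + 1 + 1 + 2) (by omega) f _ fun L hL x' z => by
      rw [pow_add _ (k + 1 + 1) 2, mul_comm _ (_ ^ 2), mul_assoc,
        ← hl.eig hg E hA hB hL x'.2.1 (Matrix.vecCons x'.1 x'.2.2) z]
      simp only [Fintype.sum_prod_type, sum_cons (k := k + 1), Finset.mul_sum, Fin.prod_univ_succ
        (n := k + 1), Matrix.cons_val_zero, Matrix.cons_val_succ]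
      rw [Finset.sum_comm]
      exact Finset.sum_congr rfl fun _ _ => Finset.sum_congr rfl fun _ _ =>
        Finset.sum_congr rfl fun _ _ => by push_cast; ring
  have n0 : 0 ≤ ∫ z, |A (be z) * u z| := integral_nonneg fun _ => abs_nonneg _
  have n1 : 0 ≤ ∫ z, |B (be z) * u z| := integral_nonneg fun _ => abs_nonneg _
  have u0 : ‖a 0‖ ≤ _ := hC0 _ _ fun x => hl.zero x.2 x.1
  have u1 : ‖a 1‖ ≤ _ := hC1 _ _ fun x => hl.one hA hB e2 x.2 x.1
  have u2 : ‖a' 0‖ ≤ _ := hC2 _ _ fun x => hl.one hA hB e2 (Matrix.vecCons x.1 x.2.2) x.2.1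
  rw [e]
  calc _ ≤ ∑ k ∈ Finset.range (k0 + 1), ‖(k.factorial : ℂ)⁻¹ * (a k - a' k)‖ := norm_sum_le _ _
    _ ≤ ∑ k ∈ Finset.range (k0 + 1 + 1), ‖(k.factorial : ℂ)⁻¹ * (a k - a' k)‖ :=
        Finset.sum_le_sum_of_subset_of_nonneg
          (Finset.range_subset_range.2 (by omega)) fun _ _ _ => norm_nonneg _
    _ = ‖a 1‖ + ‖a 0 - a' 0‖ := by
        rw [Finset.sum_range_succ', Finset.sum_range_succ']
        simp [z1, z2]
    _ ≤ _ := by
        nlinarith [norm_sub_le (a 0) (a' 0), mul_nonneg b0 n0, mul_nonneg b1 n1, mul_nonneg b2 n1]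

lemma emb3 (hg : GRP c) (i : Fin 2) : Emb Bs (fun n => eta n * va n) (fun n => eta n * ex i n) 3
    fun k n J γ => ix3 n J γ where
  odd := by decide
  e1 L hL := bs_a hg hL
  e2 L hL := bs_e hg hL i
  sum k F := by simp only [sum_ix3, Fintype.sum_prod_type]
  prod k L x x' a a' b b' γ γ' := prod_ix3 _ _ _ _ _ _ _ _ _

lemma emb5 (hg : GRP c) (i j : Fin 2) : Emb (ι := Ix × Ix × Ix)
    (fun L x' x => Bs L x'.1 x.1 * (Bs L x'.2.1 x.2.1 * Bs L x'.2.2 x.2.2))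
    (fun x => eta x.1 * va x.1 * (eta x.2.1 * ex i x.2.1 * (eta x.2.2 * ex j x.2.2))) (fun _ => 0) 5
    fun k x J γ => ix5 x.1 x.2.1 x.2.2 J γ where
  odd := by decide
  e1 L hL x' := by
    rw [← mul_assoc, ← bs_a hg hL, ← bs_e hg hL i, ← bs_e hg hL j, Finset.sum_mul_sum,
      Finset.sum_mul]
    simp only [Fintype.sum_prod_type, Finset.mul_sum]
    exact Finset.sum_congr rfl fun _ _ => Finset.sum_congr rfl fun _ _ =>
      Finset.sum_congr rfl fun _ _ => by ring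
  e2 L hL x' := by simp
  sum k F := by
    simp only [sum_cons (k := k + 4), sum_cons (k := k + 3), sum_ix3, Fintype.sum_prod_type, ix5]
    exact Grp.sum4 _
  prod k L x x' a a' b b' γ γ' := by
    simp only [ix5, Fin.prod_univ_succ (n := k + 4), Fin.prod_univ_succ (n := k + 3),
      Matrix.cons_val_zero, Matrix.cons_val_succ, prod_ix3]
    ring

variable {w : I2 → I2 → S2 →L[ℂ] Completion D}

lemma wl_p21 (I : I2) (l : Ix) (G : S2) : wl w I (p21 l G) =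
    ∑ a, ∑ b, ((eta a * va a : ℝ) : ℂ) • w I (a, b) (p21 l (p22 b G)) := by
  simp only [wl_ap, p21_eq, p22_eq, ld_comm ((bas l 1, 0) : V × V)]

/-- **The contact terms are small for thin test functions.** -/
theorem contact (hg : GRP c) (hs : STRUCT c) (hp : POLY c) (hw : TP2 c.Q c.T false w) (i j : Fin 2)
    {f : Fn} (hf : IsTest f) : ∃ C : ℝ, 0 ≤ C ∧ ∀ (g : P3 → ℝ) (A B : ℝ → ℝ) (u : V → ℝ),
      Tst g → Tst A → Tst B → Tst u → (∀ z ∈ tsupport u, ∀ᶠ y in 𝓝 (pl z), g y = 1) →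
      (∀ z, deriv B (be z) * u z = A (be z) * u z) →
      ‖inner ℂ (dvT (wd w) va (PP (rp (xm i g) A) u) - dvT (wd w) va (PP (rp g A) (xv i u)) +
        dvT (wd w) (ex i) (PP (rp g B) u) - biT w va (ex i) (ex j) (XG j g A u)) (c.Th f)‖ ≤
        C * ((∫ z, |A (be z) * u z|) + ∫ z, |B (be z) * u z|) := by
  obtain ⟨f, rfl⟩ := hf
  obtain ⟨k0, O, h1, -, h3⟩ := hs.dv false w hw
  obtain ⟨k1, O', h4, -, h5⟩ := hs.bi false w hw
  obtain ⟨C0, b0, hC0⟩ := gen_bd hg hp (emb3 hg i) i (fun k => h1 k) h3 f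
  obtain ⟨C1, b1, hC1⟩ := gen_bd hg hp (emb5 hg i j) j (Λ := fun x => bi1 w x.1 x.2.1 x.2.2)
    (fun k => h4 k) (fun x => h5 x.1 x.2.1 x.2.2) f
  refine ⟨C0 + C1, by positivity, fun g A B u hg' hA hB hu e1 e2 => ?_⟩
  have x0 : XG j g A u = Gc j g A B u o := by simp [XG, Gc, eta, va, o, ex, tv, pt]
  have u0 := hC0 A B u (Gc i g A B u) hA hB (Gc_cs hg' hA hB hu)
    (fun k γ n z => dg_Gc hg' hA hB hu e1 (n, γ) z) e2
  have u1 := hC1 A B u (fun x => ((eta x.1 * va x.1 * (eta x.2.1 * ex i x.2.1 *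
    (eta x.2.2 * ex j x.2.2)) : ℝ) : ℂ) • XG j g A u) hA hB
    (fun x => (x0 ▸ Gc_cs hg' hA hB hu o : HasCompactSupport (XG j g A u)).smul_left)
    (fun k γ x z => by
      rw [dg_smul, SchwartzMap.smul_apply, x0, dg_Gc hg' hA hB hu e1 (o, γ) z]
      simp [eta, va, o, ex, tv, pt]
      ring) e2
  have d : ∀ k G, dvT (wd w) k G = ∑ n, ((eta n * k n : ℝ) : ℂ) • ∑ a, ∑ b,
      ((eta a * va a : ℝ) : ℂ) • dvL w n (a, b) (p22 b G) := fun k G => by
    refine Finset.sum_congr rfl fun n _ => ?_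
    rw [tr_wd _ (fun j => dvL (wd w) n (j, j) G) fun j hj => by simp [dvL, wd, hj]]
    congr 1
    simp only [dvL_ap, dv1, wd, if_true, Finset.smul_sum]
    rw [← sum_rot]
    exact Finset.sum_congr rfl fun m _ => wl_p21 _ m G
  have e : dvT (wd w) va (PP (rp (xm i g) A) u) - dvT (wd w) va (PP (rp g A) (xv i u)) +
      dvT (wd w) (ex i) (PP (rp g B) u) = ∑ n, ∑ a, ∑ b,
        ((eta a * va a : ℝ) : ℂ) • dv1 w n (a, b) (p22 b (Gc i g A B u n)) := by
    simp only [d, ← dvL_ap, Gc, map_add, map_smul, map_sub, smul_add, smul_sub, smul_smul,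
      Finset.smul_sum, Finset.sum_add_distrib, Finset.sum_sub_distrib, mul_comm]
  have e' : biT w va (ex i) (ex j) (XG j g A u) = ∑ x : Ix × Ix × Ix, ∑ a, ∑ b,
      ((eta a * va a : ℝ) : ℂ) • bi1 w x.1 x.2.1 x.2.2 (a, b) (p22 b (((eta x.1 * va x.1 *
        (eta x.2.1 * ex i x.2.1 * (eta x.2.2 * ex j x.2.2)) : ℝ) : ℂ) • XG j g A u)) := by
    simp only [biT, Fintype.sum_prod_type]
    refine Finset.sum_congr rfl fun l _ => Finset.sum_congr rfl fun m _ =>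
      Finset.sum_congr rfl fun n _ => ?_
    simp only [bi1, cu1, cuL, ContinuousLinearMap.add_apply, ContinuousLinearMap.smul_apply,
      ContinuousLinearMap.sub_apply, ContinuousLinearMap.comp_apply, wl_p21, map_smul, smul_add,
      smul_sub, Finset.smul_sum, Finset.sum_add_distrib, Finset.sum_sub_distrib, smul_smul]
    generalize ((eta l * va l * (eta m * ex i m * (eta n * ex j n)) : ℝ) : ℂ) = α
    simp only [mul_comm, mul_left_comm, mul_assoc]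
  rw [norm_inner_symm, e, e', inner_sub_right, add_mul]
  exact norm_sub_le_of_le u0 u1

end

end Vale.Agent.P352X.ZZ.Conm
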