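import Vale.Agent.P352X.R.CONM.A
import Vale.Agent.P352Z.R.Ev
import Vale.Agent.P352Z.R.Br

/-!
# P352Z, row CONM, part A: real test functions, factorization of `w(T(h,k), ϑ)`
-/

set_option linter.all false

open MeasureTheory Filter Topology Set
open scoped SchwartzMap ComplexConjugate ContDiff

namespace Vale.Agent.P352X.ZZ.Conm

export Vale.Agent.P352X.Conm (sch_ap dc_cx tsupp_cx tst_mul_r tst_mul_l tst_add tst_sub tst_prod
  tst_comp tst_fd tst_diff rp pr_eq tst_rp supp_rp sr ev_sr test_cx bar_cx tsupp_sr in_cx PP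
  PP_ap PP_cs wT wT_ap coe_sum')

open Vale.Agent.P352 Vale.Agent.P352.GF Vale.Agent.P352.BW Vale.Agent.P352.H246
open Vale.Agent.P352.H496 Vale.Agent.P352.H755 Vale.Agent.P352.H15
open UniformSpace (Completion)
open Complex (I)

noncomputable section

open Ev

variable {D : Type*} [NormedAddCommGroup D] [InnerProductSpace ℂ D] {c : Ctx D}

/-- the leg in the second slot -/
def wl (w : I2 → I2 → S2 →L[ℂ] Completion D) (I : I2) : S2 →L[ℂ] Completion D :=
  ∑ p, ∑ q, ((eta p * va p : ℝ) : ℂ) • w I (p, q) ∘L p22 q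

lemma wl_ap (w : I2 → I2 → S2 →L[ℂ] Completion D) (I : I2) (F : S2) :
    wl w I F = ∑ p, ∑ q, ((eta p * va p : ℝ) : ℂ) • w I (p, q) (p22 q F) := by
  simp only [wl, ContinuousLinearMap.sum_apply, ContinuousLinearMap.smul_apply,
    ContinuousLinearMap.comp_apply]

/-- a kernel whose trace in the second slot is the leg -/
def wd (w : I2 → I2 → S2 →L[ℂ] Completion D) (I J : I2) : S2 →L[ℂ] Completion D :=
  if J = (o, o) then wl w I else 0

lemma tr_wd {M : Type*} [AddCommMonoid M] [Module ℂ M] (a : ℝ) (F : Ix → M)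
    (h : ∀ j, j ≠ o → F j = 0) : ∑ j, ((a * eta j : ℝ) : ℂ) • F j = (a : ℂ) • F o := by
  rw [Finset.sum_eq_single o (fun j _ k => by rw [h j k, smul_zero]) (by simp)]
  simp [eta]

lemma wT_wd (w : I2 → I2 → S2 →L[ℂ] Completion D) (h k : V) (F : S2) : wT (wd w) h k F =
    ∑ m, ∑ n, ((eta m * h m * (eta n * k n) : ℝ) : ℂ) • wl w (m, n) F := by
  rw [wT_ap]
  refine Finset.sum_congr rfl fun m _ => Finset.sum_congr rfl fun n _ => ?_
  rw [tr_wd _ (fun j => wd w (m, n) (j, j) F) fun j hj => by simp [wd, hj], wd, if_pos rfl]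

lemma w0_eq (w : I2 → I2 → S2 →L[ℂ] Completion D) (F : S2) : w0 w F = wT (wd w) va va F := by
  simp only [wT_wd, wl_ap, w0, Finset.smul_sum, smul_smul, ← Complex.ofReal_mul]

lemma T_fld (c : Ctx D) (m n : Ix) : c.Q.fld (c.T m n) := fld c m n

variable {w : I2 → I2 → S2 →L[ℂ] Completion D}

lemma PP_sr {g u : V → ℝ} (hg : Tst g) (hu : Tst u) (x y : V) : PP g u (x, y) = sr g x * sr u y := by
  rw [PP_ap hg hu, show sr g x = cx g x from congrFun (ev_sr hg) x,
    show sr u y = cx u y from congrFun (ev_sr hu) y]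
  simp [cx]

/-- the `T` leg is later -/
lemma facA (hw : TP2 c.Q c.T false w) (h k : V) {g u : V → ℝ} (hg : Tst g) (hu : Tst u)
    (hl : Late (tsupport g) (tsupport u)) (y : D) :
    inner ℂ (wT (wd w) h k (PP g u)) (y : Completion D) =
      inner ℂ (c.Tf (hk h k (cx g)) c.Q.vac) (c.Thf (cx u) y) := by
  have e : ∀ m n, wl w (m, n) (PP g u) =
      ((c.Thf (cx u) (c.T m n (cx g) c.Q.vac) : D) : Completion D) := fun m n => by
    rw [wl_ap, Thf_eq c (test_cx hu)]
    simp only [coe_sum, Completion.coe_smul]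
    refine Finset.sum_congr rfl fun p _ => Finset.sum_congr rfl fun q _ => ?_
    rw [hw.fac (m, n) (p, q) (sr g) (ld (bas q 1) (sr u)) _ (p22_tens (PP_sr hg hu) q)
      fun x hx y hy => hl x (tsupp_sr hg ▸ hx) y (tsupp_sr hu ▸ tsupport_ld _ _ hy),
      ev_pd, ev_sr hg, ev_sr hu]
    rfl
  have a := Thf_adj c (test_cx hu)
  rw [bar_cx] at a
  simp only [wT_wd, e, sum_inner, inner_smul_left, Completion.inner_coe,
    Tf_hk c h k (test_cx hg), a _ y]

/-- the `ϑ` leg is later -/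
lemma facB (hw : TP2 c.Q c.T false w) (h k : V) {g u : V → ℝ} (hg : Tst g) (hu : Tst u)
    (hl : Late (tsupport u) (tsupport g)) (y : D) :
    inner ℂ (wT (wd w) h k (PP g u)) (y : Completion D) =
      inner ℂ (c.Thf (cx u) c.Q.vac) (c.Tf (hk h k (cx g)) y) := by
  have e : ∀ m n, wl w (m, n) (PP g u) =
      ((c.T m n (cx g) (c.Thf (cx u) c.Q.vac) : D) : Completion D) := fun m n => by
    have a := T_adj c m n (test_cx hg)
    rw [wl_ap, Thf_eq c (test_cx hu), adj_sum' a]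
    simp only [adj_sum a, coe_sum, Completion.coe_smul]
    refine Finset.sum_congr rfl fun p _ => Finset.sum_congr rfl fun q _ => ?_
    rw [hw.swap (m, n) (p, q) _ (p21 q (PP u g)) fun x y => by
        rw [p21_tens (PP_sr hu hg), p22_tens (PP_sr hg hu), mul_comm],
      hw.fac (p, q) (m, n) (ld (bas q 1) (sr u)) (sr g) _ (p21_tens (PP_sr hu hg) q)
        fun x hx y hy => hl x (tsupp_sr hu ▸ tsupport_ld _ _ hx) y (tsupp_sr hg ▸ hy),
      ev_pd, ev_sr hg, ev_sr hu]
    rfl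
  have a := fun m n => T_adj c m n (test_cx hg)
  simp only [bar_cx] at a
  simp only [wT_wd, e, sum_inner, inner_smul_left, Completion.inner_coe, Complex.conj_ofReal,
    Tf_hk c h k (test_cx hg), fun m n v => a m n v y, inner_sum, inner_smul_right]

/-- `T(h,k)(g)` commutes with `ϑ(f)` -/
lemma comm (c : Ctx D) (h k : V) {g f : Fn} (hg : IsTest g) (hf : IsTest f) (hs : Sep g f)
    (x : D) : inner ℂ x (c.Tf (hk h k g) (c.Thf f c.Q.vac)) =
      inner ℂ (c.Thf (bar f) x) (c.Tf (hk h k g) c.Q.vac) := by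
  rw [Thf_def c f, Tf_comm c (tt_hk h k hg) (tt_ad va hf) fun m n p q =>
    sep_mono hs tsupport_mul_subset_right (tsupport_ad _ _ _ _), Thf_adj c (Ap.test_bar hf),
    Ap.bar_bar, Thf_def]

/-- the pairing is small when `T(h,k)(g) Ω` is small -/
lemma err0 (hw : TP2 c.Q c.T false w) {u : V → ℝ} (hu : Tst u) {f : Fn} (hf : IsTest f) :
    ∃ C : ℝ, 0 ≤ C ∧ ∀ (h k : V) (g : V → ℝ), Tst g → (Late (tsupport g) (tsupport u) ∨
      (Late (tsupport u) (tsupport g) ∧ Sep (cx g) f)) →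
      ‖inner ℂ (wT (wd w) h k (PP g u)) (c.Th f)‖ ≤ C * ‖c.Tf (hk h k (cx g)) c.Q.vac‖ := by
  refine ⟨‖c.Thf (cx u) (c.Thf f c.Q.vac)‖ + ‖c.Thf (bar f) (c.Thf (cx u) c.Q.vac)‖,
    by positivity, fun h k g hg hl => ?_⟩
  rcases hl with hl | ⟨hl, hs⟩
  · rw [Ctx.Th, facA hw h k hg hu hl]
    refine (norm_inner_le_norm _ _).trans ?_
    rw [mul_comm]
    gcongr
    exact le_add_of_nonneg_right (norm_nonneg _)
  · rw [Ctx.Th, facB hw h k hg hu hl, comm c h k (test_cx hg) hf hs]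
    refine (norm_inner_le_norm _ _).trans ?_
    gcongr
    exact le_add_of_nonneg_left (norm_nonneg _)

end

end Vale.Agent.P352X.ZZ.Conm
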