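import Vale.Agent.P352X.R.CONM.B
import Vale.Agent.P352Z.R.CONM.A
import Vale.Agent.P352Z.R.FAR

/-!
# P352Z, row CONM, part B: the fluxes vanish in the limit
-/

set_option linter.all false

open MeasureTheory Filter Topology Set
open scoped SchwartzMap ComplexConjugate ContDiff

namespace Vale.Agent.P352X.ZZ.Conm

export Vale.Agent.P352X.Conm (Wt wt_a wt_b wt_e Bs gz tst_gz late_be late_mono sep_of_late
  supp_gz PP_add)

open Vale.Agent.P352 Vale.Agent.P352.GF Vale.Agent.P352.BW Vale.Agent.P352.H246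
open Vale.Agent.P352.H496 Vale.Agent.P352.H755 Vale.Agent.P352.H15
open UniformSpace (Completion)
open Complex (I)

noncomputable section

open Ev

variable {D : Type*} [NormedAddCommGroup D] [InnerProductSpace ℂ D] {c : Ctx D}

lemma Bs_lor (hg : GRP c) {L : ℝ} (hL : 0 < L) : IsLor (Bs L) := (hg.lsc L 1 hL one_pos).1

lemma Bs_sim (hg : GRP c) {L : ℝ} (hL : 0 < L) (z : V) :
    sim 1 (Bs L) 0 z = (Real.sqrt L)⁻¹ • scp L 1 z := by
  have hq : 0 < Real.sqrt L := Real.sqrt_pos.2 hL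
  rw [← (hg.lsc L 1 hL one_pos).2 z]
  funext n
  simp only [sim, Bs, Pi.zero_apply, zero_add, one_mul, mul_one, Pi.smul_apply, smul_eq_mul]
  rw [← mul_assoc, inv_mul_cancel₀ hq.ne', one_mul]

lemma Tf_smul (c : Ctx D) (h k : V) (a b : ℝ) {f : Fn} (hf : IsTest f) (v : D) :
    c.Tf (hk (a • h) (b • k) f) v = ((a * b : ℝ) : ℂ) • c.Tf (hk h k f) v := by
  simp only [Tf_hk c _ _ hf, Finset.smul_sum, smul_smul, Pi.smul_apply, smul_eq_mul]
  refine Finset.sum_congr rfl fun m _ => Finset.sum_congr rfl fun n _ => ?_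
  congr 1
  push_cast
  ring

lemma Tf_smulf (c : Ctx D) (h k : V) (a : ℂ) {f : Fn} (hf : IsTest f) (v : D) :
    c.Tf (hk h k fun x => a * f x) v = a • c.Tf (hk h k f) v := by
  have hf' : IsTest fun x => a * f x := by
    obtain ⟨g, rfl⟩ := hf
    exact ⟨a • g, rfl⟩
  simp only [Tf_hk c _ _ hf, Tf_hk c _ _ hf', T_smul c _ _ _ hf, Finset.smul_sum, smul_comm a]

lemma norm_U (c : Ctx D) {s : ℝ} {L : Ix → V} (a : V) (hs : 0 < s) (hL : IsLor L) (v : D) :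
    ‖c.Q.U s L a v‖ = ‖v‖ := by
  rw [norm_eq_sqrt_re_inner (𝕜 := ℂ), c.Q.U_inner s L a v v hs hL, ← norm_eq_sqrt_re_inner]

variable [Fact c.can]

lemma norm_Tf (hg : GRP c) {h k : V} {n m : ℕ} (hh : Wt h n) (hk' : Wt k m) {g : P3 → ℝ}
    {ρ : ℝ → ℝ} (h1 : Tst g) (h2 : Tst ρ) {L : ℝ} (hL : 0 < L) :
    ‖c.Tf (hk h k (pr (kL g L) ρ)) c.Q.vac‖ =
      Real.sqrt L ^ ((2 : ℤ) - n - m) * ‖c.Tf (hk h k (pr g ρ)) c.Q.vac‖ := by
  obtain ⟨-, hs⟩ := hg.lsc L 1 hL one_pos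
  have hΛ := Bs_lor hg hL
  have hq : 0 < Real.sqrt (L * 1) := Real.sqrt_pos.2 (by positivity)
  have hq' : 0 < Real.sqrt L := Real.sqrt_pos.2 hL
  have ht := Far.isTest_dc (Far.dc_pr (Far.tst_kL h1 hL) h2)
  have e1 : (fun x => pr (kL g L) ρ (sim (Real.sqrt (L * 1)) (Bs L) 0 x)) = pr g ρ := by
    funext x
    rw [Bs, hs]
    simp only [pr, kL, pl_1, pl_2, al_scp, be_scp, tx_scp, mul_one, one_mul, smul_smul]
    rw [inv_mul_cancel₀ hq'.ne', one_smul, mul_div_cancel_left₀ _ hL.ne']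
    rfl
  have := hg.ten _ (Bs L) 0 h k _ c.Q.vac hq hΛ ht
  rw [e1, c.Q.U_vac _ _ _ hq hΛ, Bs_sim hg hL, Bs_sim hg hL, hh L hL, hk' L hL, smul_smul,
    smul_smul, Tf_smul c _ _ _ _ ht] at this
  rw [← norm_U c 0 hq hΛ (c.Tf (hk h k (pr g ρ)) c.Q.vac), this, norm_smul, Complex.norm_real, Real.norm_of_nonneg (by positivity), ← mul_assoc,
    zpow_sub₀ hq'.ne', zpow_sub₀ hq'.ne', zpow_natCast, zpow_natCast, zpow_ofNat]
  field_simp

lemma nrm_lim (hg : GRP c) {h k : V} {n m : ℕ} (hh : Wt h n) (hk' : Wt k m) {p : ℤ}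
    (hp : p + 2 < n + m) {κ : P3 → ℝ} {φ : ℝ → ℝ} (h1 : Tst κ) (h2 : Tst φ) :
    Tendsto (fun L => ‖c.Tf (hk h k (cx (rp (gz p κ L) φ))) c.Q.vac‖) atTop (𝓝 0) := by
  have t1 : Tendsto (fun L : ℝ => Real.sqrt L ^ (p + ((2 : ℤ) - n - m)) *
      ‖c.Tf (hk h k (pr κ φ)) c.Q.vac‖) atTop (𝓝 0) := by
    have := ((tendsto_zpow_atTop_zero (n := p + ((2 : ℤ) - n - m)) (by omega)).comp
      Real.tendsto_sqrt_atTop).mul_const ‖c.Tf (hk h k (pr κ φ)) c.Q.vac‖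
    simpa using this
  refine t1.congr' ?_
  filter_upwards [eventually_gt_atTop 0] with L hL
  have hq' : 0 < Real.sqrt L := Real.sqrt_pos.2 hL
  have e : cx (rp (gz p κ L) φ) = fun x => ((Real.sqrt L ^ p : ℝ) : ℂ) * pr (kL κ L) φ x := by
    funext x
    simp only [cx, rp, gz, pr]
    push_cast
    ring
  rw [e, Tf_smulf c _ _ _ (Far.isTest_dc (Far.dc_pr (Far.tst_kL h1 hL) h2)), norm_smul,
    norm_Tf hg hh hk' h1 h2 hL, Complex.norm_real, Real.norm_of_nonneg (by positivity),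
    zpow_add₀ hq'.ne', mul_assoc]

variable {w : I2 → I2 → S2 →L[ℂ] Completion D}

/-- the `T` leg is above the `ϑ` leg -/
theorem errU (hg : GRP c) (hw : TP2 c.Q c.T false w) {h k : V} {n m : ℕ} (hh : Wt h n)
    (hk' : Wt k m) {p : ℤ} (hp : p + 2 < n + m) {κ : P3 → ℝ} {φ : ℝ → ℝ} {u : V → ℝ} {f : Fn}
    (h1 : Tst κ) (h2 : Tst φ) (hu : Tst u) (hf : IsTest f) {b : ℝ} (s1 : tsupport φ ⊆ Ioi b)
    (s2 : tsupport u ⊆ {z | be z ≤ b}) :
    Tendsto (fun L => inner ℂ (wT (wd w) h k (PP (rp (gz p κ L) φ) u)) (c.Th f)) atTop (𝓝 0) := by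
  obtain ⟨C, -, hC⟩ := err0 hw hu hf
  have t := (nrm_lim hg hh hk' hp h1 h2).const_mul C
  rw [mul_zero] at t
  refine squeeze_zero_norm' ?_ t
  filter_upwards [eventually_gt_atTop 0] with L hL
  exact hC h k _ (tst_rp (tst_gz p h1 hL) h2) (Or.inl (late_be fun x hx y hy =>
    lt_of_le_of_lt (s2 hy) (s1 (supp_rp hx).2)))

/-- the `T` leg is far away -/
theorem errF (hg : GRP c) (hw : TP2 c.Q c.T false w) {h k : V} {n m : ℕ} (hh : Wt h n)
    (hk' : Wt k m) {p : ℤ} (hp : p + 2 < n + m) {κ : P3 → ℝ} {φ : ℝ → ℝ} {u : V → ℝ} {f : Fn}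
    (h1 : Tst κ) (h2 : Tst φ) (hu : Tst u) {b : ℝ} (hf : In {z | be z < b} f)
    (s0 : (0 : P3) ∉ tsupport κ) (s1 : tsupport φ ⊆ Ici b) :
    Tendsto (fun L => inner ℂ (wT (wd w) h k (PP (rp (gz p κ L) φ) u)) (c.Th f)) atTop (𝓝 0) := by
  obtain ⟨C, -, hC⟩ := err0 hw hu hf.1
  obtain ⟨R, hR⟩ := (hu.2.isCompact.union hf.2.1.isCompact).isBounded.exists_norm_le
  obtain ⟨r, hr⟩ := h2.2.isCompact.isBounded.exists_norm_le
  obtain ⟨κp, κm, A, a1, a2, -, -, a5, a6, a7⟩ := Far.split h1 s0 R r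
  have t := ((nrm_lim hg hh hk' hp a1 h2).const_mul C).add
    ((nrm_lim hg hh hk' hp a2 h2).const_mul C)
  rw [mul_zero, add_zero] at t
  refine squeeze_zero_norm' ?_ t
  filter_upwards [eventually_ge_atTop A] with L hA
  have hL := a6.trans_le hA
  obtain ⟨b1, b2⟩ := a7 L hA φ _ (fun t ht => abs_le.1 (hr t ht)) hR
  have e : rp (gz p κ L) φ = fun z => rp (gz p κp L) φ z + rp (gz p κm L) φ z := by
    funext z
    simp only [rp, gz, kL, a5]
    ring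
  have u1 := tst_rp (tst_gz p a1 hL) h2
  have u2 := tst_rp (tst_gz p a2 hL) h2
  rw [e, PP_add u1 u2 hu, map_add, inner_add_left]
  refine (norm_add_le _ _).trans (add_le_add (hC h k _ u1 (Or.inl ?_)) (hC h k _ u2 (Or.inr ⟨?_, ?_⟩)))
  · exact late_mono b1 supp_gz subset_union_left
  · exact late_mono b2 subset_union_left supp_gz
  · refine sep_of_late (late_be fun x hx y hy => ?_) ?_
    · rw [tsupp_cx] at hx
      exact lt_of_lt_of_le (hf.2.2 hy) (s1 (supp_rp hx).2)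
    · rw [tsupp_cx]
      exact late_mono b2 subset_union_right supp_gz

end

end Vale.Agent.P352X.ZZ.Conm
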