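import Vale.Agent.P352X.R.CONM.C
import Vale.Agent.P352Z.R.CONM.B

/-!
# P352Z, row CONM, part C: the divergence of the pair test functions
-/

set_option linter.all false

open MeasureTheory Filter Topology Set
open scoped SchwartzMap ComplexConjugate ContDiff

namespace Vale.Agent.P352X.ZZ.Conm

export Vale.Agent.P352X.Conm (da dj tst_da tst_dj tst_deriv pl_dec md_bas line_PP dvL dvL_ap dvT
  wT_alt dvT_PP fd_kL xm tst_xm fd_xm gz_0 gz_xm gz_da gz_dj da_xm dj_xm cut_fd cut_xm PP_rp_add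
  PP_rp_add' xv tst_xv)

open Vale.Agent.P352 Vale.Agent.P352.GF Vale.Agent.P352.BW Vale.Agent.P352.H246
open Vale.Agent.P352.H496 Vale.Agent.P352.H755 Vale.Agent.P352.H15
open UniformSpace (Completion)
open Complex (I)

noncomputable section

open Ev

variable {D : Type*} [NormedAddCommGroup D] [InnerProductSpace ℂ D] {c : Ctx D}
  {κ : P3 → ℝ} {L : ℝ} {w : I2 → I2 → S2 →L[ℂ] Completion D}

/-- one term of the Bianchi divergence -/
def cuL (w : I2 → I2 → S2 →L[ℂ] Completion D) (l m n : Ix) : S2 →L[ℂ] Completion D :=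
  (eta l : ℂ) • (wl w (m, n) ∘L p21 l - wl w (n, m) ∘L p21 l)

/-- the Bianchi divergence, contracted with three vectors -/
def biT (w : I2 → I2 → S2 →L[ℂ] Completion D) (h k r : V) (G : S2) : Completion D := ∑ l, ∑ m, ∑ n,
  ((eta l * h l * (eta m * k m * (eta n * r n)) : ℝ) : ℂ) • (cuL w l m n + cuL w m n l + cuL w n l m) G

lemma ld_fst (h : V) (G : S2) : ld ((h, 0) : V × V) G = ∑ l, (h l : ℂ) • p21 l G := by
  simp only [p21_eq, ← ld_sum]
  congr 2
  refine Prod.ext ?_ ?_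
  · simp only [Prod.fst_sum, Prod.smul_fst]
    exact (Ap.sum_bas h).symm
  · simp [Prod.snd_sum]

lemma cu_sum (h k r : V) (G : S2) : ∑ l, ∑ m, ∑ n,
    ((eta l * h l * (eta m * k m * (eta n * r n)) : ℝ) : ℂ) • cuL w l m n G =
      wT (wd w) k r (ld ((h, 0) : V × V) G) - wT (wd w) r k (ld ((h, 0) : V × V) G) := by
  have e : ∀ l (a : ℝ), ((eta l * h l * a : ℝ) : ℂ) * eta l = (h l : ℂ) * a := fun l a => by
    rw [← Complex.ofReal_mul, ← Complex.ofReal_mul]
    congr 1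
    linear_combination h l * a * eta_sq l
  rw [ld_fst, map_sum, map_sum, ← Finset.sum_sub_distrib]
  refine Finset.sum_congr rfl fun l _ => ?_
  rw [map_smul, map_smul, wT_wd w k r, wT_wd w r k, Finset.sum_comm (γ := Ix)
    (f := fun m n => ((eta m * r m * (eta n * k n) : ℝ) : ℂ) • wl w (m, n) (p21 l G))]
  simp only [cuL, ContinuousLinearMap.smul_apply, ContinuousLinearMap.sub_apply,
    ContinuousLinearMap.comp_apply, smul_smul, e, Finset.smul_sum, smul_sub, Finset.sum_sub_distrib,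
    mul_comm (eta _ * r _)]

lemma sum_rot {M : Type*} [AddCommMonoid M] (F : Ix → Ix → Ix → M) :
    ∑ l, ∑ m, ∑ n, F l m n = ∑ m, ∑ n, ∑ l, F l m n := by
  rw [Finset.sum_comm]
  exact Finset.sum_congr rfl fun m _ => Finset.sum_comm

theorem biT_eq (h k r : V) (G : S2) : biT w h k r G =
    (wT (wd w) k r (ld ((h, 0) : V × V) G) - wT (wd w) r k (ld ((h, 0) : V × V) G)) +
    (wT (wd w) r h (ld ((k, 0) : V × V) G) - wT (wd w) h r (ld ((k, 0) : V × V) G)) +
    (wT (wd w) h k (ld ((r, 0) : V × V) G) - wT (wd w) k h (ld ((r, 0) : V × V) G)) := by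
  rw [← cu_sum, ← cu_sum, ← cu_sum, biT]
  simp only [ContinuousLinearMap.add_apply, smul_add, Finset.sum_add_distrib]
  rw [sum_rot fun l m n => _ • cuL w m n l G, ← sum_rot fun n l m => _ • cuL w n l m G]
  simp only [mul_comm, mul_left_comm, mul_assoc]

lemma ld_a {g : P3 → ℝ} {φ : ℝ → ℝ} {u : V → ℝ} (hg : Tst g) (hφ : Tst φ) (hu : Tst u) :
    ld ((va, 0) : V × V) (PP (rp g φ) u) = PP (rp (da g) φ) u := by
  simpa using line_PP hg hφ hu va

lemma ld_e {g : P3 → ℝ} {φ : ℝ → ℝ} {u : V → ℝ} (hg : Tst g) (hφ : Tst φ) (hu : Tst u)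
    (i : Fin 2) : ld ((ex i, 0) : V × V) (PP (rp g φ) u) = PP (rp (dj i g) φ) u := by
  have := line_PP hg hφ hu (ex i)
  fin_cases i <;> simpa [e2] using this

/-- `(x1 - x2)_j g φ u` -/
def XG (j : Fin 2) (g : P3 → ℝ) (φ : ℝ → ℝ) (u : V → ℝ) : S2 :=
  PP (rp (xm j g) φ) u - PP (rp g φ) (xv j u)

variable [Fact c.can]

/-- **The thin part is a divergence up to fluxes.** -/
theorem thin_lim (hg : GRP c) (hw : TP2 c.Q c.T false w) (hκ : Cut κ) (i : Fin 2)
    {ρ A A1 B B1 : ℝ → ℝ} {u : V → ℝ} {f : Fn} {b b0 : ℝ} (hρ : Tst ρ) (hA : Tst A) (hA1 : Tst A1)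
    (hB : Tst B) (hB1 : Tst B1) (hu : Tst u) (hf : In {z | be z < b} f)
    (eA : deriv A = fun t => ρ t + A1 t) (eB : deriv B = fun t => A t + B1 t)
    (sA : tsupport A ⊆ Ici b) (sB : tsupport B ⊆ Ici b) (sA1 : tsupport A1 ⊆ Ioi b0)
    (sB1 : tsupport B1 ⊆ Ioi b0) (su : tsupport u ⊆ {z | be z ≤ b0}) :
    Tendsto (fun L => inner ℂ (dvT (wd w) va (PP (rp (xm i (kL κ L)) A) u) -
      dvT (wd w) va (PP (rp (kL κ L) A) (xv i u)) + dvT (wd w) (ex i) (PP (rp (kL κ L) B) u) -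
      biT w va (ex i) (ex i.rev) (XG i.rev (kL κ L) A u)) (c.Th f) -
      inner ℂ (wT (wd w) va va (PP (rp (xm i (kL κ L)) ρ) u) -
        wT (wd w) va va (PP (rp (kL κ L) ρ) (xv i u))) (c.Th f)) atTop (𝓝 0) := by
  have hu' := tst_xv i hu
  have su' : tsupport (xv i u) ⊆ {z | be z ≤ b0} := tsupport_mul_subset_right.trans su
  have k1 := hκ.1
  have t1 := errU hg hw wt_a wt_a (p := 0 + 1) (by norm_num) (tst_xm i k1) hA1 hu hf.1 sA1 su
  have t2 := errU hg hw wt_a wt_a (p := 0) (by norm_num) k1 hA1 hu' hf.1 sA1 su'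
  have t3 := errU hg hw wt_a (wt_e i) (p := 0) (by norm_num) k1 hB1 hu hf.1 sB1 su
  have t4 := errF hg hw wt_b wt_a (p := -2 + 1) (by norm_num) (tst_xm i (tst_da k1)) hA hu hf
    (cut_xm i (cut_fd hκ _)) sA
  have t5 := errF hg hw wt_b wt_a (p := -2) (by norm_num) (tst_da k1) hA hu' hf (cut_fd hκ _) sA
  have t6 := errF hg hw wt_b (wt_e i) (p := -2) (by norm_num) (tst_da k1) hB hu hf
    (cut_fd hκ _) sB
  have t7 := fun j => errF hg hw (wt_e j) wt_a (p := -1 + 1) (by norm_num)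
    (tst_xm i (tst_dj j k1)) hA hu hf (cut_xm i (cut_fd hκ _)) sA
  have t8 := fun j => errF hg hw (wt_e j) wt_a (p := -1) (by norm_num) (tst_dj j k1) hA hu' hf
    (cut_fd hκ _) sA
  have t9 := fun j => errF hg hw (wt_e j) (wt_e i) (p := -1) (by norm_num) (tst_dj j k1) hB hu hf
    (cut_fd hκ _) sB
  have x := tst_xv i.rev hu
  have r1 := fun i j l => errF hg hw (wt_e i) (wt_e j) (p := -2 + 1) (by norm_num)
    (tst_xm l (tst_da k1)) hA hu hf (cut_xm l (cut_fd hκ _)) sA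
  have r2 := fun i j => errF hg hw (wt_e i) (wt_e j) (p := -2) (by norm_num) (tst_da k1) hA x hf
    (cut_fd hκ _) sA
  have r3 := fun i j l => errF hg hw (wt_e i) wt_a (p := -1 + 1) (by norm_num)
    (tst_xm l (tst_dj j k1)) hA hu hf (cut_xm l (cut_fd hκ _)) sA
  have r4 := fun i j => errF hg hw (wt_e i) wt_a (p := -1) (by norm_num) (tst_dj j k1) hA x hf
    (cut_fd hκ _) sA
  have r5 := fun i j l => errF hg hw wt_a (wt_e i) (p := -1 + 1) (by norm_num)
    (tst_xm l (tst_dj j k1)) hA hu hf (cut_xm l (cut_fd hκ _)) sA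
  have r6 := fun i j => errF hg hw wt_a (wt_e i) (p := -1) (by norm_num) (tst_dj j k1) hA x hf
    (cut_fd hκ _) sA
  have t := ((((((((((((t1.sub t2).add t3).add t4).sub t5).add t6).sub (t7 0)).sub (t7 1)).add
    (t8 0)).add (t8 1)).sub (t9 0)).sub (t9 1)).sub
    (((((r1 i i.rev i.rev).sub (r2 i i.rev)).sub ((r1 i.rev i i.rev).sub (r2 i.rev i))).add
      (((r3 i.rev i i.rev).sub (r4 i.rev i)).sub ((r5 i.rev i i.rev).sub (r6 i.rev i)))).add
      (((r5 i i.rev i.rev).sub (r6 i i.rev)).sub ((r3 i i.rev i.rev).sub (r4 i i.rev)))))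
  simp only [sub_zero, add_zero] at t
  refine t.congr' ?_
  filter_upwards [eventually_gt_atTop 0] with L hL
  have k2 := Far.tst_kL k1 hL
  rw [dvT_PP (wd w) va (tst_xm i k2) hA hu, dvT_PP (wd w) va k2 hA hu',
    dvT_PP (wd w) (ex i) k2 hB hu, PP_rp_add' (tst_xm i k2) hρ hA1 hu eA,
    PP_rp_add' k2 hρ hA1 hu' eA, PP_rp_add' k2 hA hB1 hu eB, da_xm k2, biT_eq]
  simp only [XG, map_sub, ld_a (tst_xm _ k2) hA hu, ld_a k2 hA x, ld_e (tst_xm _ k2) hA hu,
    ld_e k2 hA x, da_xm k2]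
  simp only [dj_xm k2, PP_rp_add k2 (tst_xm _ (tst_dj _ k2)) hA hu, ← gz_xm hL, ← gz_0,
    ← gz_da k1 hL, ← gz_dj k1, map_add, map_smul, Fin.sum_univ_two, inner_add_left, inner_sub_left,
    inner_smul_left, Complex.conj_ofReal]
  fin_cases i <;> simp [e2] <;> ring

end

end Vale.Agent.P352X.ZZ.Conm
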