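import Vale.Agent.P352X.R.CONM.E
import Vale.Agent.P352Z.R.CONM.C

/-!
# P352Z, row CONM, part D: overlaps of the leg with covariant multiplets
-/

set_option linter.all false

open MeasureTheory Filter Topology Set
open scoped SchwartzMap ComplexConjugate ContDiff

namespace Vale.Agent.P352X.ZZ.Conm

export Vale.Agent.P352X.Conm (ft_sch ft_gft evp_cont evp_hom evp_mup int_evp tr_inv int_ft'
  sum_cons sum_ix3 prod_ix3 pow_aux)

open Vale.Agent.P352 Vale.Agent.P352.GF Vale.Agent.P352.BW Vale.Agent.P352.H246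
open Vale.Agent.P352.H496 Vale.Agent.P352.H755 Vale.Agent.P352.H15
open UniformSpace (Completion)
open Complex (I)

noncomputable section

open Ev

variable {D : Type*} [NormedAddCommGroup D] [InnerProductSpace ℂ D] {c : Ctx D}

lemma Bs_row (hg : GRP c) {L : ℝ} (hL : 0 < L) (m : Ix) :
    Bs L m = (Real.sqrt L)⁻¹ • scp L 1 (bas m 1) := by
  rw [← Bs_sim hg hL, P352X.Conm.sim_bas]

lemma bs_a (hg : GRP c) {L : ℝ} (hL : 0 < L) (m : Ix) :
    ∑ n, Bs L m n * (eta n * va n) = (Real.sqrt L)⁻¹ * (eta m * va m) := by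
  have : be (Bs L m) = (Real.sqrt L)⁻¹ * be (bas m 1) := by simp [Bs_row hg hL]
  rw [← md_bas, md_va, ← this, be, GF.mdot]
  exact Finset.sum_congr rfl fun n _ => by ring

lemma bs_e (hg : GRP c) {L : ℝ} (hL : 0 < L) (i : Fin 2) (m : Ix) :
    ∑ n, Bs L m n * (eta n * ex i n) = eta m * ex i m := by
  have : tx (Bs L m) i = tx (bas m 1) i := by
    simp [Bs_row hg hL, inv_mul_cancel_left₀ (Real.sqrt_pos.2 hL).ne']
  rw [← md_bas, md_ex, ← this, ← md_ex, GF.mdot]
  exact Finset.sum_congr rfl fun n _ => by ring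

lemma lor_p {L : Ix → V} (hL : IsLor L) (p : V) (m : Ix) :
    ∑ n, L m n * (eta n * sim 1 L 0 p n) = eta m * p m := by
  have e : ∀ k, ∑ n, L m n * (eta n * (p k * L k n)) = p k * bas m (eta m) k := fun k => by
    rw [← hL.1 m k, GF.mdot, Finset.mul_sum]
    exact Finset.sum_congr rfl fun n _ => by ring
  simp only [sim, Pi.zero_apply, zero_add, one_mul, Finset.mul_sum]
  rw [Finset.sum_comm]
  simp only [e]
  simp [bas, mul_comm]

/-- the overlap of the leg with a family that is covariant under the boosts -/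
structure Ov (c : Ctx D) {ι : Type} [Fintype ι] (n : ℕ) (M : ℝ → ι → ι → ℝ)
    (O : ι → Sch →L[ℂ] Completion D) (q : ι → V → ℂ) : Prop where
  rep : ∀ μ (f' f : Sch), inner ℂ (c.Th (ev f')) (O μ f) =
    ∫ p in Fc, q μ p * conj (ft (ev f') p) * ft (ev f) p
  int : ∀ μ (f' : Sch), Integrable (fun p => q μ p * conj (ft (ev f') p)) (volume.restrict Fc)
  dvd : ∀ μ, ∃ s : V → ℂ, Continuous s ∧ ∀ p, q μ p = mu p * s p
  hom : ∀ μ (t : ℝ) p, q μ (t • p) = (t : ℂ) ^ n * q μ p
  cov : ∀ L, 0 < L → ∀ μ p, q μ (sim 1 (Bs L) 0 p) = ∑ ν, (M L ν μ : ℂ) * q ν p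

lemma cj_pd (s : Ix) (f : Sch) (p : V) :
    conj (ft (ev (ld (bas s 1) f)) p) = I * (eta s * p s : ℝ) * conj (ft (ev f) p) := by
  rw [ev_pd, ft_pd ⟨f, rfl⟩]
  simp

theorem ex_ov (hg : GRP c) (hp : POLY c) {N : ℕ} {d : ℤ}
    {O : (Fin N → Ix) → Sch →L[ℂ] Completion D} (hO : CovM c.Q N d O) (he : Even (d - N)) :
    ∃ q, Ov c (d.toNat + 1) (fun L ν μ => (Real.sqrt L)⁻¹ * ∏ i, Bs L (ν i) (μ i)) O q := by
  obtain ⟨π, h1, h2, -, -, -, h5, h6⟩ := hp N d O hO he
  have i1 : ∀ r s μ (f' : Sch), Integrable (fun p => ((eta r * va r : ℝ) : ℂ) *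
      (I * (eta s * p s : ℝ) * evp (π r s μ) p) * conj (ft (ev f') p)) (volume.restrict Fc) :=
    fun r s μ f' => ((int_evp (π r s μ) (ld (bas s 1) f')).const_mul ((eta r * va r : ℝ) : ℂ)).congr
      (ae_of_all _ fun p => by simp only [cj_pd]; ring)
  refine ⟨fun μ p => ∑ r, ∑ s, ((eta r * va r : ℝ) : ℂ) *
    (I * (eta s * p s : ℝ) * evp (π r s μ) p), fun μ f' f => ?_, fun μ f' => ?_,
    fun μ => ?_, fun μ t p => ?_, fun L hL μ p => ?_⟩
  · simp only [Th_eq c ⟨f', rfl⟩, ← ev_pd, sum_inner, inner_smul_left, Complex.conj_ofReal, h1,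
      Finset.sum_mul, cj_pd]
    rw [integral_finset_sum _ fun r _ => integrable_finset_sum _ fun s _ => int_ft' (i1 r s μ f') f]
    refine Finset.sum_congr rfl fun r _ => ?_
    rw [integral_finset_sum _ fun s _ => int_ft' (i1 r s μ f') f]
    refine Finset.sum_congr rfl fun s _ => ?_
    rw [← integral_const_mul]
    exact integral_congr_ae (ae_of_all _ fun p => by ring)
  · simp only [Finset.sum_mul]
    exact integrable_finset_sum _ fun r _ => integrable_finset_sum _ fun s _ => i1 r s μ f'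
  · have hd : ∀ r, mup ∣ ∑ s, MvPolynomial.C (eta s : ℂ) * MvPolynomial.X s * π r s μ := fun r => by
      refine P352X.Nul.dvd_of _ ?_
      have e : (∑ s, MvPolynomial.C (eta s : ℂ) * MvPolynomial.X s * π r s μ) * MvPolynomial.X 0 =
          ∑ s, MvPolynomial.C (eta s : ℂ) * MvPolynomial.X s *
            (π r s μ * MvPolynomial.X 0 - π r 0 μ * MvPolynomial.X s) + mup * π r 0 μ := by
        simp only [mup, Finset.sum_mul, ← Finset.sum_add_distrib]
        exact Finset.sum_congr rfl fun s _ => by ring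
      rw [e]
      exact (Finset.dvd_sum fun s _ => (h5 r s 0 μ).mul_left _).add (dvd_mul_right _ _)
    choose σ hσ using hd
    refine ⟨fun p => ∑ r, ((eta r * va r : ℝ) : ℂ) * (I * evp (σ r) p),
      continuous_finset_sum _ fun r _ => continuous_const.mul
        (continuous_const.mul (evp_cont _)), fun p => ?_⟩
    rw [Finset.mul_sum]
    refine Finset.sum_congr rfl fun r _ => ?_
    have := congrArg (fun q => evp q p) (hσ r)
    simp only [evp, map_sum, map_mul, MvPolynomial.eval_C, MvPolynomial.eval_X] at this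
    rw [← evp_mup, mul_left_comm, mul_left_comm (evp mup p), evp, evp, ← this, Finset.mul_sum,
      Finset.mul_sum]
    exact Finset.sum_congr rfl fun s _ => by simp only [evp]; push_cast; ring
  · simp only [evp_hom (h2 _ _ _).1, Finset.mul_sum, Pi.smul_apply, smul_eq_mul]
    exact Finset.sum_congr rfl fun r _ => Finset.sum_congr rfl fun s _ => by push_cast; ring
  · have hB := Bs_lor hg hL
    have a1 := fun k => congrArg (fun t : ℝ => (t : ℂ)) (bs_a hg hL k)
    have a2 := fun k => congrArg (fun t : ℝ => (t : ℂ)) (lor_p hB p k)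
    simp only [Complex.ofReal_sum] at a1 a2
    calc _ = ∑ k, ∑ l, ∑ ν : Fin N → Ix, (∑ r, ((Bs L k r * (eta r * va r) : ℝ) : ℂ)) *
          (∑ s, ((Bs L l s * (eta s * sim 1 (Bs L) 0 p s) : ℝ) : ℂ)) *
            (I * (∏ i, Bs L (ν i) (μ i) : ℝ) * evp (π k l ν) p) := by
          simp only [h6 _ _ _ _ p hB, Finset.mul_sum, Finset.sum_mul]
          rw [Grp.sum4]
          refine Finset.sum_congr rfl fun k _ => Finset.sum_congr rfl fun l _ => ?_
          rw [Finset.sum_comm]
          conv_rhs => rw [Finset.sum_comm]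
          refine Finset.sum_congr rfl fun s _ => ?_
          rw [Finset.sum_comm]
          exact Finset.sum_congr rfl fun ν _ => Finset.sum_congr rfl fun r _ => by push_cast; ring
      _ = _ := by
          simp only [a1, a2, Finset.mul_sum]
          symm
          rw [Finset.sum_comm]
          refine Finset.sum_congr rfl fun k _ => ?_
          rw [Finset.sum_comm]
          exact Finset.sum_congr rfl fun l _ => Finset.sum_congr rfl fun ν _ => by push_cast; ring

variable {ι κ : Type} [Fintype ι] [Fintype κ] {n : ℕ}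

/-- change of the index set -/
lemma Ov.re {M : ℝ → ι → ι → ℝ} {O : ι → Sch →L[ℂ] Completion D} {q : ι → V → ℂ}
    (h : Ov c n M O q) (e : κ → ι) (he : ∀ F : ι → ℂ, ∑ ν, F ν = ∑ x, F (e x))
    {M' : ℝ → κ → κ → ℝ} (hM : ∀ L x y, M L (e x) (e y) = M' L x y) :
    Ov c n M' (fun x => O (e x)) fun x => q (e x) :=
  ⟨fun _ => h.rep _, fun _ => h.int _, fun _ => h.dvd _, fun _ => h.hom _, fun L hL μ p => by
    simp only [h.cov L hL, he, hM]⟩

variable {M : ℝ → ι → ι → ℝ} {O : Ix × ι → Sch →L[ℂ] Completion D} {q : Ix × ι → V → ℂ}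

/-- contraction with `a` -/
lemma Ov.ca (hg : GRP c) (h : Ov c n (fun L ν μ => Bs L ν.1 μ.1 * M L ν.2 μ.2) O q) :
    Ov c n (fun L ν μ => (Real.sqrt L)⁻¹ * M L ν μ)
      (fun μ => ∑ b, ((eta b * va b : ℝ) : ℂ) • O (b, μ))
      fun μ p => ∑ b, ((eta b * va b : ℝ) : ℂ) * q (b, μ) p := by
  refine ⟨fun μ f' f => ?_, fun μ f' => ?_, fun μ => ?_, fun μ t p => ?_, fun L hL μ p => ?_⟩
  · simp only [ContinuousLinearMap.sum_apply, ContinuousLinearMap.smul_apply, inner_sum,
      inner_smul_right, h.rep, Finset.sum_mul, ← integral_const_mul, mul_assoc]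
    exact (integral_finset_sum _ fun b _ => by
      simpa only [mul_assoc] using (int_ft' (h.int (b, μ) f') f).const_mul _).symm
  · simp only [Finset.sum_mul, mul_assoc]
    exact integrable_finset_sum _ fun b _ => (h.int _ f').const_mul _
  · choose s h1 h2 using h.dvd
    exact ⟨fun p => ∑ b, ((eta b * va b : ℝ) : ℂ) * s (b, μ) p, by fun_prop, fun p => by
      simp only [h2, Finset.mul_sum, mul_left_comm]⟩
  · simp only [h.hom, Finset.mul_sum, mul_left_comm]
  · have a1 := fun k => congrArg (fun t : ℝ => (t : ℂ)) (bs_a hg hL k)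
    simp only [Complex.ofReal_sum] at a1
    calc _ = ∑ k, ∑ ν, (∑ r, ((Bs L k r * (eta r * va r) : ℝ) : ℂ)) * (M L ν μ * q (k, ν) p) := by
          simp only [h.cov L hL, Fintype.sum_prod_type, Finset.mul_sum, Finset.sum_mul]
          rw [Finset.sum_comm]
          refine Finset.sum_congr rfl fun k _ => ?_
          rw [Finset.sum_comm]
          exact Finset.sum_congr rfl fun ν _ => Finset.sum_congr rfl fun r _ => by push_cast; ring
      _ = _ := by
          simp only [a1, Finset.mul_sum]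
          rw [Finset.sum_comm]
          exact Finset.sum_congr rfl fun l _ => Finset.sum_congr rfl fun ν _ => by push_cast; ring

/-- contraction with a derivative -/
lemma Ov.cd (hg : GRP c) (h : Ov c n (fun L ν μ => Bs L ν.1 μ.1 * M L ν.2 μ.2) O q) :
    Ov c (n + 1) M (fun μ => ∑ b, O (b, μ) ∘L ld (bas b 1))
      fun μ p => ∑ b, -(I * (eta b * p b : ℝ)) * q (b, μ) p := by
  have i1 : ∀ b μ (f' : Sch), Integrable (fun p => -(I * (eta b * p b : ℝ)) * q (b, μ) p *
      conj (ft (ev f') p)) (volume.restrict Fc) := fun b μ f' =>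
    (h.int (b, μ) (ld (bas b 1) f')).neg.congr (ae_of_all _ fun p => by
      simp only [cj_pd, Pi.neg_apply]; ring)
  refine ⟨fun μ f' f => ?_, fun μ f' => ?_, fun μ => ?_, fun μ t p => ?_, fun L hL μ p => ?_⟩
  · simp only [ContinuousLinearMap.sum_apply, ContinuousLinearMap.comp_apply, inner_sum,
      h.rep, Finset.sum_mul, ev_pd, ft_pd ⟨f, rfl⟩]
    rw [integral_finset_sum _ fun b _ => int_ft' (i1 b μ f') f]
    exact Finset.sum_congr rfl fun b _ => integral_congr_ae (ae_of_all _ fun p => by ring)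
  · simp only [Finset.sum_mul]
    exact integrable_finset_sum _ fun b _ => i1 b μ f'
  · choose s h1 h2 using h.dvd
    exact ⟨fun p => ∑ b, -(I * (eta b * p b : ℝ)) * s (b, μ) p, by fun_prop, fun p => by
      simp only [h2, Finset.mul_sum, mul_left_comm]⟩
  · simp only [h.hom, Finset.mul_sum, Pi.smul_apply, smul_eq_mul]
    exact Finset.sum_congr rfl fun b _ => by push_cast; ring
  · have a1 := fun k => congrArg (fun t : ℝ => (t : ℂ)) (lor_p (Bs_lor hg hL) p k)
    simp only [Complex.ofReal_sum] at a1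
    calc _ = ∑ k, ∑ ν, (∑ r, ((Bs L k r * (eta r * sim 1 (Bs L) 0 p r) : ℝ) : ℂ)) *
          (-I * M L ν μ * q (k, ν) p) := by
          simp only [h.cov L hL, Fintype.sum_prod_type, Finset.mul_sum, Finset.sum_mul]
          rw [Finset.sum_comm]
          refine Finset.sum_congr rfl fun k _ => ?_
          rw [Finset.sum_comm]
          exact Finset.sum_congr rfl fun ν _ => Finset.sum_congr rfl fun r _ => by push_cast; ring
      _ = _ := by
          simp only [a1, Finset.mul_sum]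
          rw [Finset.sum_comm]
          exact Finset.sum_congr rfl fun l _ => Finset.sum_congr rfl fun ν _ => by push_cast; ring

variable {O : ι → Sch →L[ℂ] Completion D} {q : ι → V → ℂ}

/-- the overlap is bounded by the `L¹` norm -/
lemma Ov.bd (h : Ov c n M O q) (f' : Sch) (a : ι → ℝ) : ∃ C : ℝ, 0 ≤ C ∧
    ∀ (t : ι → Sch) (F : V → ℝ), (∀ x z, t x z = ((a x * F z : ℝ) : ℂ)) →
      ‖inner ℂ (c.Th (ev f')) (∑ x, O x (t x))‖ ≤ C * ∫ z, |F z| := by
  refine ⟨∑ x, (∫ p in Fc, ‖q x p * conj (ft (ev f') p)‖) * |a x|, Finset.sum_nonneg fun μ _ =>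
    mul_nonneg (integral_nonneg fun _ => norm_nonneg _) (abs_nonneg _), fun t F ht => ?_⟩
  rw [inner_sum, Finset.sum_mul]
  refine (norm_sum_le _ _).trans (Finset.sum_le_sum fun x _ => ?_)
  rw [h.rep]
  refine (norm_integral_le_of_norm_le ((h.int x f').norm.mul_const (∫ z, ‖t x z‖))
    (ae_of_all _ fun p => ?_)).trans_eq ?_
  · rw [norm_mul]
    gcongr
    exact FT.norm_gft_le (B := mdL) _ p
  · simp only [integral_mul_const, ht, Complex.norm_real, Real.norm_eq_abs, abs_mul,
      integral_const_mul, mul_assoc]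

/-- **Boost weights.** -/
theorem Ov.wt (hg : GRP c) (h : Ov c n M O q) {w : ℕ} (hw : n < w + 2) (t : ι → ℂ)
    (ht : ∀ L : ℝ, 0 < L → ∀ x', ∑ x, (M L x' x : ℂ) * t x =
      (((Real.sqrt L)⁻¹ : ℝ) : ℂ) ^ w * t x') (p : V) : ∑ x, t x * q x p = 0 := by
  obtain ⟨e, he⟩ := Nat.exists_eq_add_of_lt hw
  set P : V → ℂ := fun p => ∑ x, t x * q x p with hP
  choose s hs1 hs2 using h.dvd
  set S : V → ℂ := fun p => ∑ x, t x * s x p with hS
  have cS : Continuous S := by fun_prop
  have e1 : ∀ p, P p = mu p * S p := fun p => by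
    simp only [hP, hS, hs2, Finset.mul_sum, mul_left_comm]
  have e2 : ∀ (r : ℝ) p, P (r • p) = (r : ℂ) ^ n * P p := fun r p => by
    simp only [hP, h.hom, Finset.mul_sum, mul_left_comm]
  have e3 : ∀ L : ℝ, 0 < L → P (sim 1 (Bs L) 0 p) = (((Real.sqrt L)⁻¹ : ℝ) : ℂ) ^ w * P p := by
    intro L hL
    simp only [hP, h.cov L hL, Finset.mul_sum]
    rw [Finset.sum_comm]
    refine Finset.sum_congr rfl fun x' _ => ?_
    rw [← mul_assoc, ← ht L hL x', Finset.sum_mul]
    exact Finset.sum_congr rfl fun x _ => by ring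
  have e4 : ∀ r : ℝ, 0 < r → P p = (r : ℂ) ^ (e + 1) * (mu p * S (scp (r ^ 2) 1 p)) := by
    intro r hr
    have hL : 0 < r ^ 2 := by positivity
    have b1 : scp (r ^ 2) 1 p = r • sim 1 (Bs (r ^ 2)) 0 p := by
      rw [Bs_sim hg hL, Real.sqrt_sq hr.le, smul_smul, mul_inv_cancel₀ hr.ne', one_smul]
    have b2 := e1 (scp (r ^ 2) 1 p)
    rw [b1, e2, e3 _ hL, mu_smul, mu_lor _ (Bs_lor hg hL), Real.sqrt_sq hr.le, ← b1] at b2
    have hr' : (r : ℂ) ≠ 0 := Complex.ofReal_ne_zero.2 hr.ne'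
    push_cast at b2
    refine mul_left_cancel₀ (pow_ne_zero n hr') ?_
    rw [← mul_assoc, ← pow_add, ← add_assoc, ← he, pow_add, mul_assoc, ← mul_assoc (_ ^ 2), ← b2,
      inv_pow, mul_left_comm, mul_inv_cancel_left₀ (pow_ne_zero w hr')]
  have t1 : Tendsto (fun r : ℝ => (r : ℂ) ^ (e + 1) * (mu p * S (scp (r ^ 2) 1 p)))
      (𝓝[>] 0) (𝓝 0) := by
    have c1 : Continuous fun r : ℝ => (r : ℂ) ^ (e + 1) * (mu p * S (scp (r ^ 2) 1 p)) := by
      have : Continuous fun r : ℝ => scp (r ^ 2) 1 p := by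
        unfold scp
        fun_prop
      fun_prop
    have := (c1.tendsto 0).mono_left (nhdsWithin_le_nhds (s := Ioi 0))
    rwa [Complex.ofReal_zero, zero_pow (by omega), zero_mul] at this
  exact tendsto_nhds_unique (l := 𝓝[>] (0 : ℝ))
    (tendsto_const_nhds.congr' (eventually_nhdsWithin_of_forall e4)) t1

lemma Ov.zero (hg : GRP c) (h : Ov c n M O q) {w : ℕ} (hw : n < w + 2) (f : Sch) (t : ι → Sch)
    (ht : ∀ L : ℝ, 0 < L → ∀ x' z, ∑ x, (M L x' x : ℂ) * t x z =
      (((Real.sqrt L)⁻¹ : ℝ) : ℂ) ^ w * t x' z) :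
    inner ℂ (c.Th (ev f)) (∑ x, O x (t x)) = 0 := by
  simp only [inner_sum, h.rep]
  rw [← integral_finset_sum _ fun x _ => int_ft' (h.int x f) _]
  refine integral_eq_zero_of_ae (ae_of_all _ fun p => ?_)
  have := h.wt hg hw (fun x => ft (ev (t x)) p) (fun L hL x' => by
    simp only [← ft_mul]
    have tt : ∀ (a : ℂ) (g : Sch), IsTest fun z => a * ev g z := fun a g => ⟨a • g, rfl⟩
    rw [← ft_sum _ fun x _ => tt _ (t x)]
    congr 1
    exact funext (ht L hL x')) p
  have e := congrArg (fun y => conj (ft (ev f) p) * y) this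
  simp only [mul_zero, Finset.mul_sum] at e
  simp only [Pi.zero_apply]
  rw [← e]
  exact Finset.sum_congr rfl fun x _ => by ring

end

end Vale.Agent.P352X.ZZ.Conm
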